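import Vale.Agent.P181.DH.H924.Main

set_option autoImplicit false

/-!
# P181, DH: one sentence for all `a ≤ b`

From `UniX` (line DX), `DiagH` (line DH), the theorem for `w ≤ 2 a` (line TW) and `PolyS`.
-/

namespace Vale.Agent.P181.DH.H924

open Vale.Agent.P181.T4 (ex low)
open Vale.Agent.P181.H280 (plethMult)
open Vale.Agent.P181.PL
open Vale.Agent.P181.DX.X924 (UniX TwiceS)

/-- **One sentence for all `a ≤ b`.** `P = C (1 + log a) ^ c`, `w = λ_2 + λ_3 + ⋯`,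
`D_2 = λ_3 + λ_4 + ⋯`: `F` holds if `w ≤ b`, or `w ≤ 2 a` (and not `w = 2 a`, `b = a + 1`), or
`D_2 ≤ b - a + 1`, or `P w ≤ (b - a) ^ 2`, or `P w ≤ b ^ 2`, `P w ≤ D_2 ^ 2` and
`P w ≤ (w - a - λ_3) ^ 2`. -/
def UniH : Prop := ∃ (C : ℝ) (c : ℕ), 1 ≤ C ∧ ∀ a b : ℕ, a ≤ b →
  ∀ (n : ℕ) (lam : Fin n → ℕ),
  (dn lam 1 ≤ b ∨ (dn lam 1 ≤ 2 * a ∧ (dn lam 1 < 2 * a ∨ a + 2 ≤ b)) ∨
    a + dn lam 2 ≤ b + 1 ∨
    C * (1 + Real.log a) ^ c * (dn lam 1 : ℝ) ≤ ((b : ℝ) - a) ^ 2 ∨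
    (C * (1 + Real.log a) ^ c * (dn lam 1 : ℝ) ≤ (b : ℝ) ^ 2 ∧
      C * (1 + Real.log a) ^ c * (dn lam 1 : ℝ) ≤ (dn lam 2 : ℝ) ^ 2 ∧
      C * (1 + Real.log a) ^ c * (dn lam 1 : ℝ) ≤ ((dn lam 1 : ℝ) - a - ex lam 2) ^ 2)) →
  plethMult a b n lam ≤ plethMult b a n lam

/-- `P w ≤ (b - a) ^ 2`: every shape. -/
def UniD : Prop := ∃ (C : ℝ) (c : ℕ), 1 ≤ C ∧ ∀ a b : ℕ, a ≤ b →
  ∀ (n : ℕ) (lam : Fin n → ℕ),
  C * (1 + Real.log a) ^ c * (dn lam 1 : ℝ) ≤ ((b : ℝ) - a) ^ 2 →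
  plethMult a b n lam ≤ plethMult b a n lam

theorem uniD_of (hH : DiagH) (hT : TwiceS) (hP : PolyS) : UniD := by
  obtain ⟨C1, c1, hC1, h1⟩ := hP
  obtain ⟨C2, c2, hC2, h2⟩ := hH
  have hC1' : (1 : ℝ) ≤ (1 + C1) ^ 2 := one_le_pow₀ (by linarith)
  refine ⟨(C2 + 1) * (1 + C1) ^ 2, c2 + 2 * c1,
    one_le_mul_of_one_le_of_one_le (by linarith) hC1', fun a b hab n lam h4 => ?_⟩
  have hL0 : 0 ≤ Real.log a := Real.log_natCast_nonneg a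
  obtain ⟨L, hL⟩ : ∃ L : ℝ, L = 1 + Real.log a := ⟨_, rfl⟩
  rw [← hL] at h4
  have hL1 : 1 ≤ L := by
    rw [hL]
    linarith
  have hw0 : (0 : ℝ) ≤ (dn lam 1 : ℝ) := Nat.cast_nonneg _
  have hLc : 1 ≤ L ^ (2 * c1) := one_le_pow₀ hL1
  obtain ⟨T, hT'⟩ : ∃ T : ℝ, T = (C2 + 1) * L ^ c2 * (dn lam 1 : ℝ) := ⟨_, rfl⟩
  have hT0 : 0 ≤ T := by
    rw [hT']
    positivity
  have hT2 : C2 * L ^ c2 * (dn lam 1 : ℝ) ≤ T := by
    rw [hT']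
    apply mul_le_mul_of_nonneg_right _ hw0
    exact mul_le_mul_of_nonneg_right (by linarith) (by positivity)
  have h6 : 1 ≤ (1 + C1) ^ 2 * L ^ (2 * c1) := one_le_mul_of_one_le_of_one_le hC1' hLc
  have hTe : (1 + C1) ^ 2 * L ^ (2 * c1) * T =
      (C2 + 1) * (1 + C1) ^ 2 * L ^ (c2 + 2 * c1) * (dn lam 1 : ℝ) := by
    rw [hT', pow_add]
    ring
  rw [← hTe] at h4
  have hTle : T ≤ (1 + C1) ^ 2 * L ^ (2 * c1) * T := le_mul_of_one_le_left hT0 h6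
  have ha0 : (0 : ℝ) ≤ a := Nat.cast_nonneg _
  have hb0 : (0 : ℝ) ≤ b := Nat.cast_nonneg _
  have hab' : (a : ℝ) ≤ b := by exact_mod_cast hab
  have hba : (0 : ℝ) ≤ (b : ℝ) - a := by linarith
  rcases le_or_gt T ((a : ℝ) ^ 2) with hTa | hTa
  · rcases Nat.lt_or_ge (dn lam 1) (2 * a) with h7 | h7
    · exact hT a b hab n lam h7.le (Or.inl h7)
    apply h2 a b hab n lam
    rw [Alt, ← hL]
    exact Or.inr ⟨h7, hT2.trans hTa, (hT2.trans hTle).trans h4⟩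
  · apply h1 a b
    rw [← hL]
    have h8 : ((1 + C1) * L ^ c1 * a) ^ 2 ≤ ((b : ℝ) - a) ^ 2 := by
      calc ((1 + C1) * L ^ c1 * a) ^ 2 = (1 + C1) ^ 2 * L ^ (2 * c1) * (a : ℝ) ^ 2 := by
            rw [mul_pow, mul_pow, ← pow_mul, mul_comm c1 2]
        _ ≤ (1 + C1) ^ 2 * L ^ (2 * c1) * T := by
            apply mul_le_mul_of_nonneg_left hTa.le
            positivity
        _ ≤ _ := h4
    have h9 : (1 + C1) * L ^ c1 * a ≤ (b : ℝ) - a := abs_le_of_sq_le_sq' h8 hba |>.2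
    have h10 : 0 ≤ L ^ c1 * (a : ℝ) := by positivity
    calc C1 * a * L ^ c1 ≤ (1 + C1) * L ^ c1 * a := by nlinarith
      _ ≤ (b : ℝ) - a := h9
      _ ≤ b := by linarith

theorem uniH_of (hX : UniX) (hD : UniD) : UniH := by
  obtain ⟨C1, c1, hC1, h1⟩ := hX
  obtain ⟨C2, c2, hC2, h2⟩ := hD
  refine ⟨C1 * C2, c1 + c2, one_le_mul_of_one_le_of_one_le hC1 hC2,
    fun a b hab n lam h => ?_⟩
  have hL0 : 0 ≤ Real.log a := Real.log_natCast_nonneg a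
  obtain ⟨L, hL⟩ : ∃ L : ℝ, L = 1 + Real.log a := ⟨_, rfl⟩
  rw [← hL] at h
  have hL1 : 1 ≤ L := by
    rw [hL]
    linarith
  have hw0 : (0 : ℝ) ≤ (dn lam 1 : ℝ) := Nat.cast_nonneg _
  have g1 : 1 ≤ C1 * L ^ c1 := one_le_mul_of_one_le_of_one_le hC1 (one_le_pow₀ hL1)
  have g2 : 1 ≤ C2 * L ^ c2 := one_le_mul_of_one_le_of_one_le hC2 (one_le_pow₀ hL1)
  have e : C1 * C2 * L ^ (c1 + c2) = (C1 * L ^ c1) * (C2 * L ^ c2) := by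
    rw [pow_add]
    ring
  have k1 : C1 * L ^ c1 * (dn lam 1 : ℝ) ≤ C1 * C2 * L ^ (c1 + c2) * (dn lam 1 : ℝ) := by
    rw [e]
    exact mul_le_mul_of_nonneg_right (le_mul_of_one_le_right (by linarith) g2) hw0
  have k2 : C2 * L ^ c2 * (dn lam 1 : ℝ) ≤ C1 * C2 * L ^ (c1 + c2) * (dn lam 1 : ℝ) := by
    rw [e]
    exact mul_le_mul_of_nonneg_right (le_mul_of_one_le_left (by linarith) g1) hw0
  rcases h with h | h | h | h | ⟨h3, h4, h5⟩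
  · exact h1 a b hab n lam (Or.inl h)
  · exact h1 a b hab n lam (Or.inr (Or.inl h))
  · exact h1 a b hab n lam (Or.inr (Or.inr (Or.inl h)))
  · apply h2 a b hab n lam
    rw [← hL]
    exact k2.trans h
  · apply h1 a b hab n lam
    rw [← hL]
    exact Or.inr (Or.inr (Or.inr ⟨k1.trans h3, k1.trans h4, k1.trans h5⟩))

end Vale.Agent.P181.DH.H924
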