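import Vale.Agent.P181.PL508.Common
import Vale.Agent.P181.PL5.Br
import Vale.Agent.P181.PL81.Heavy1
import Vale.Agent.P181.SZN4.Num

set_option autoImplicit false

/-!
# P181: the lower bound for the smaller shape at the hole `λ_2, λ_3 ≈ a`

`2 κ` cells are removed from the rows one and two, `κ ≈ a / 3`.
-/

namespace Vale.Agent.P181.DH.H924

open Vale.Agent.P181.T4 (ex low low_anti)
open Vale.Agent.P181.H280 (plethMult)
open Vale.Agent.P181.H463 (gt)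
open Vale.Agent.P181.PL Vale.Agent.P181.PL508
open Vale.Agent.P181.SZ (LBC LBR)
open Vale.Agent.P181.SZN4 (low_bound k0_facts b0_small)

/-- The smaller shape. -/
lemma exists_nuH {n : ℕ} (hn : 3 < n) {lam : Fin n → ℕ} (h : Antitone lam) {κ T : ℕ}
    (h1 : 2 * κ + ex lam 3 ≤ ex lam 2) (hT : dn lam 1 + ex lam 1 ≤ T) :
    ∃ nu : Fin n → ℕ, Antitone nu ∧ ∑ i, nu i = T ∧ ex nu 1 + 2 * κ = ex lam 1 ∧
      ex nu 2 + 2 * κ = ex lam 2 ∧ (∀ i, 3 ≤ i → ex nu i = ex lam i) ∧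
      dn nu 1 + 4 * κ = dn lam 1 ∧ dn nu 3 = dn lam 3 := by
  obtain ⟨nu, hnu⟩ : ∃ nu : Fin n → ℕ, nu = fun i : Fin n =>
    if (i : ℕ) = 0 then T + 4 * κ - dn lam 1 else if (i : ℕ) < 3 then lam i - 2 * κ else lam i :=
    ⟨_, rfl⟩
  have h12 : ex lam 2 ≤ ex lam 1 := exanti h (by norm_num)
  have a1 := dn_succ lam 1
  have a2 := dn_succ lam 2
  have a4 : dn lam (1 + 1) = dn lam 2 := rfl
  have a5 : dn lam (2 + 1) = dn lam 3 := rfl
  have e0 : ex nu 0 = T + 4 * κ - dn lam 1 := by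
    rw [exlt nu (by omega : 0 < n), hnu]
    simp
  have e1 : ex nu 1 = ex lam 1 - 2 * κ := by
    rw [exlt nu (by omega : 1 < n), exlt lam (by omega : 1 < n), hnu]
    simp
  have e2 : ex nu 2 = ex lam 2 - 2 * κ := by
    rw [exlt nu (by omega : 2 < n), exlt lam (by omega : 2 < n), hnu]
    simp
  have e3 : ∀ i, 3 ≤ i → ex nu i = ex lam i := by
    intro i hi
    rcases Nat.lt_or_ge i n with hin | hin
    · rw [exlt nu hin, exlt lam hin, hnu]
      simp only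
      rw [if_neg (by omega), if_neg (by omega)]
    · rw [exge nu hin, exge lam hin]
  have hd3 : dn nu 3 = dn lam 3 := by
    apply dn_congr
    intro i hi
    have := e3 i hi
    rwa [exfin, exfin] at this
  have b0 := dn_succ nu 0
  have b1 := dn_succ nu 1
  have b2 := dn_succ nu 2
  have b4 : dn nu (1 + 1) = dn nu 2 := rfl
  have b5 : dn nu (2 + 1) = dn nu 3 := rfl
  have b6 : dn nu (0 + 1) = dn nu 1 := rfl
  rw [dn_zero] at b0
  refine ⟨nu, ?_, by omega, by omega, by omega, e3, by omega, hd3⟩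
  intro i j hij
  have hij' : (i : ℕ) ≤ j := hij
  rw [← exfin nu i, ← exfin nu j]
  have hx := exanti h hij'
  rcases Nat.lt_or_ge (j : ℕ) 3 with hj | hj
  · rcases Nat.eq_zero_or_pos (i : ℕ) with hi | hi
    · rcases Nat.eq_zero_or_pos (j : ℕ) with hj0 | hj0
      · rw [hi, hj0]
      · have hj1 : ex nu j ≤ ex nu 1 := by
          rcases (by omega : (j : ℕ) = 1 ∨ (j : ℕ) = 2) with h5 | h5
          · rw [h5]
          · rw [h5, e1, e2]
            omega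
        rw [hi]
        omega
    · rcases (by omega : (i : ℕ) = 1 ∨ (i : ℕ) = 2) with h5 | h5
      · rcases (by omega : (j : ℕ) = 1 ∨ (j : ℕ) = 2) with h6 | h6
        · rw [h5, h6]
        · rw [h5, h6, e1, e2]
          omega
      · rw [h5, (by omega : (j : ℕ) = 2)]
  · have hj3 : ex nu j ≤ ex lam 3 := by
      rw [e3 _ hj]
      exact exanti h hj
    rcases Nat.lt_or_ge (i : ℕ) 3 with hi | hi
    · rcases (by omega : (i : ℕ) = 0 ∨ (i : ℕ) = 1 ∨ (i : ℕ) = 2) with h5 | h5 | h5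
      · rw [h5]
        omega
      · rw [h5]
        omega
      · rw [h5]
        omega
    · rw [e3 _ hj, e3 _ hi]
      exact hx

/-- **The lower bound at the hole**, `R = 3`. -/
lemma hole_lb (hC : LBC) (hR' : LBR) {a n X Z κ : ℕ} {lam : Fin n → ℕ}
    (hlam : Antitone lam) (hn : 3 < n) (ha : 1 ≤ a) (hX : 10 ^ 12 ≤ X)
    (hl1 : 10 ^ 12 * Real.log a ≤ X) (hwa : dn lam 1 + 1 ≤ a ^ 2) (h1 : a < ex lam 1)
    (h2a : 2 * a ≤ dn lam 1) (hZ1 : Z ^ 2 ≤ dn lam 1) (hZ2 : dn lam 1 < (Z + 1) ^ 2)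
    (hZX : X ^ 9999 ≤ Z) (hZa : Z * X ^ 6500 ≤ a)
    (hs : (dn lam 1 - a - ex lam 2) ^ 2 ≤ dn lam 1 * X ^ 6000) (hκ : 3 * κ ≤ a + Z + 6) :
    ∃ nu : Fin n → ℕ, Antitone nu ∧ ex nu 1 + 2 * κ = ex lam 1 ∧ ex nu 2 + 2 * κ = ex lam 2 ∧
      (∀ i, 3 ≤ i → ex nu i = ex lam i) ∧ 1 ≤ ex nu 1 ∧ 1 ≤ ex nu 2 ∧
      (n ≤ Z * X ^ 2 → 2 * (dn lam 1 + 1) ^ (3 * (Z * X ^ 2)) *
        gt (n - 3) (Z * X ^ 2) (low 3 lam) ≤
          plethMult (dn lam 1 / (Z / X ^ 5) + 1) (2 * (Z / X ^ 5)) n nu) := by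
  have hX1 : 1 ≤ X := le_trans (by norm_num) hX
  have hXp : ∀ i j, i ≤ j → X ^ i ≤ X ^ j := fun i j hij => Nat.pow_le_pow_right hX1 hij
  have hXpos : ∀ i, 1 ≤ X ^ i := fun i => Nat.one_le_pow _ _ hX1
  have hZpos : 1 ≤ Z := (hXpos 9999).trans hZX
  have hXX : ∀ i j : ℕ, i + 1 ≤ j → 10 ^ 12 * X ^ i ≤ X ^ j := by
    intro i j hij
    refine le_trans ?_ (hXp (i + 1) j hij)
    rw [pow_succ, mul_comm]
    exact Nat.mul_le_mul_left _ hX
  -- everything against `a`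
  have hsm : ∀ i : ℕ, i + 1 ≤ 6500 → 10 ^ 12 * (Z * X ^ i) ≤ a := by
    intro i hi
    calc 10 ^ 12 * (Z * X ^ i) = Z * (10 ^ 12 * X ^ i) := by ring
      _ ≤ Z * X ^ 6500 := Nat.mul_le_mul_left _ (hXX i 6500 hi)
      _ ≤ a := hZa
  obtain ⟨w, hwdef⟩ : ∃ w, w = dn lam 1 := ⟨_, rfl⟩
  rw [← hwdef] at hwa h2a hZ1 hZ2 hs ⊢
  -- the rows
  have h12 : ex lam 2 ≤ ex lam 1 := exanti hlam (by norm_num)
  have a1 := dn_succ lam 1
  have a2 := dn_succ lam 2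
  have a4 : dn lam (1 + 1) = dn lam 2 := rfl
  have a5 : dn lam (2 + 1) = dn lam 3 := rfl
  have a3 := ex_le_dn lam 3
  rw [← hwdef] at a1
  obtain ⟨E, hE⟩ : ∃ E, E = Z * X ^ 3000 := ⟨_, rfl⟩
  have hes : w - a - ex lam 2 < 2 * E := by
    have f1 : (w - a - ex lam 2) ^ 2 < (2 * E) ^ 2 := by
      calc (w - a - ex lam 2) ^ 2 ≤ w * X ^ 6000 := hs
        _ < (Z + 1) ^ 2 * X ^ 6000 := Nat.mul_lt_mul_of_pos_right hZ2 (hXpos 6000)
        _ ≤ (2 * Z) ^ 2 * X ^ 6000 :=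
            Nat.mul_le_mul_right _ (Nat.pow_le_pow_left (by omega) 2)
        _ = (2 * E) ^ 2 := by
            rw [hE]
            ring
    exact (Nat.pow_lt_pow_iff_left (by norm_num)).1 f1
  have hEa : 10 ^ 12 * (X ^ 20 * E) ≤ a := by
    rw [hE]
    calc 10 ^ 12 * (X ^ 20 * (Z * X ^ 3000)) = 10 ^ 12 * (Z * X ^ 3020) := by ring
      _ ≤ a := hsm 3020 (by norm_num)
  have hE1 : E ≤ X ^ 20 * E := Nat.le_mul_of_pos_left _ (hXpos 20)
  have hZE : Z ≤ E := by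
    rw [hE]
    exact Nat.le_mul_of_pos_right _ (hXpos 3000)
  have hZ14 : Z * X ^ 14 ≤ E := by
    rw [hE]
    exact Nat.mul_le_mul_left _ (hXp _ _ (by norm_num))
  have hZ12 : 10 ^ 12 ≤ Z := by
    refine le_trans ?_ hZX
    have := hXX 0 9999 (by norm_num)
    rw [pow_zero] at this
    omega
  -- `k`
  have hX6 : 10 ^ 6 ≤ X := by omega
  have hX20 : X ^ 20 ≤ Z := (hXp _ _ (by norm_num)).trans hZX
  obtain ⟨hk1, hk2, hk15, hkZ, hkX, hZV⟩ := k0_facts hX6 hX20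
  obtain ⟨k, hk⟩ : ∃ k, k = Z / X ^ 5 := ⟨_, rfl⟩
  rw [← hk] at hk1 hk2 hk15 hkZ hkX ⊢
  have hkpos : 0 < k := by omega
  have hkw : w ≤ k * (w / k + 1) := by
    have h := Nat.div_add_mod w k
    have h' := Nat.mod_lt w hkpos
    have e : k * (w / k + 1) = k * (w / k) + k := by ring
    omega
  have hT : dn lam 1 + ex lam 1 ≤ 2 * k * (w / k + 1) := by
    have e : 2 * k * (w / k + 1) = 2 * (k * (w / k + 1)) := by ring
    omega
  obtain ⟨nu, hnu, hnusum, hn1, hn2, hn3, hn4, hn5⟩ :=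
    exists_nuH hn hlam (κ := κ) (by omega) hT
  have hn33 := hn3 3 le_rfl
  refine ⟨nu, hnu, hn1, hn2, hn3, by omega, by omega, fun hnJ => ?_⟩
  have hwZ : w ≤ 2 * Z ^ 2 := by
    have e : (Z + 1) ^ 2 = Z ^ 2 + 2 * Z + 1 := by ring
    have e2 : Z * 4 ≤ Z * Z := Nat.mul_le_mul_left _ (by omega)
    rw [← sq] at e2
    omega
  have hR4 : 10 ^ 6 * 3 ^ 4 ≤ X := by omega
  have hlow : low 3 nu = low 3 lam := by
    funext i
    exact hn3 _ (by omega)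
  have htl : X ^ 6 * (3 * ex nu 3 + ∑ i, low 3 nu i) ≤ w := by
    rw [sum_low, hn5, hn33]
    calc X ^ 6 * (3 * ex lam 3 + dn lam 3) ≤ X ^ 20 * (8 * E) :=
          Nat.mul_le_mul (hXp _ _ (by norm_num)) (by omega)
      _ = 8 * (X ^ 20 * E) := by ring
      _ ≤ w := by omega
  have hgap : ∀ l, 2 ≤ l → l ≤ 3 →
      (∀ j, 2 ≤ j → j ≤ 3 → ex nu (j - 1) - ex nu j ≤ ex nu (l - 1) - ex nu l) →
      w ≤ 2 * 3 ^ 2 * (ex nu (l - 1) - ex nu l) := by
    intro l _ _ hlmax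
    have f1 := hlmax 3 (by norm_num) le_rfl
    have f2 : ex nu (3 - 1) = ex nu 2 := rfl
    rw [f2] at f1
    have f3 : w ≤ 2 * 3 ^ 2 * (ex nu 2 - ex nu 3) := by omega
    exact f3.trans (Nat.mul_le_mul_left _ f1)
  have hlog : 100 * ((3 : ℕ) : ℝ) * Real.log (w + 1) ≤ (X : ℝ) := by
    have hL0 : 0 ≤ Real.log a := Real.log_nonneg (by exact_mod_cast ha)
    have e1 : Real.log ((w : ℝ) + 1) ≤ 2 * Real.log a := by
      have e2 : Real.log ((w : ℝ) + 1) ≤ Real.log ((a : ℝ) ^ 2) := by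
        apply Real.log_le_log (by positivity)
        exact_mod_cast hwa
      rw [Real.log_pow] at e2
      exact_mod_cast e2
    push_cast
    linarith
  have hlb := low_bound hC hR' (n := n) (J := Z * X ^ 2) (R := 3) (X := X) (Z := Z) (w := w) nu
    hnu le_rfl hn hnJ hZ1 hwZ le_rfl hR4 hX20 (2 * ex nu 2) (by omega) le_rfl (by omega) htl hlog
    (by rw [hnusum, hk]) hgap
  rw [← hk, hlow] at hlb
  exact hlb

end Vale.Agent.P181.DH.H924
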