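import Vale.Agent.P181.DH.H924.Sliver
import Vale.Agent.P181.DU9.H924.WU.Main
import Vale.Agent.P181.DX.H924.Uni

set_option autoImplicit false

/-!
# P181, DH (H6): `P w ≤ (b - a) ^ 2` and `P w ≤ a ^ 2` suffice, for every shape

The sliver together with version W of the theorem at the diagonal.
-/

namespace Vale.Agent.P181.DH.H924

open Vale.Agent.P181.T4 (ex low)
open Vale.Agent.P181.H280 (plethMult)
open Vale.Agent.P181.PL Vale.Agent.P181.DG Vale.Agent.P181.DU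
open Vale.Agent.P181.SZ (LBC LBR)
open Vale.Agent.P181.DX.X924 (low_a UniX TwiceS)

/-- Both cases. -/
theorem scanH (hU : AsmU) (hA : AsmH) (hL : LBL) (hI : LBI) (hC : LBC) (hR' : LBR)
    {a b n X : ℕ} {lam : Fin n → ℕ} (h1 : Antitone lam) (h2 : ∑ i, lam i = a * b)
    (h3 : ∀ i, 0 < lam i) (h4 : n ≤ a) (h5 : a ≤ b) (h6 : b ≤ 5 * a) (h7 : X ^ 20000 ≤ a)
    (h8 : 10 ^ 12 * (1 + Real.log a) ^ 7 ≤ X) (h9 : b + 1 < dn lam 2 + a) (h10 : a < ex lam 1)
    (h11 : dn lam 1 * X ^ 13000 ≤ (b - a) ^ 2) (h12 : 2 * a ≤ dn lam 1)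
    (h13 : dn lam 1 * X ^ 13000 ≤ a ^ 2) :
    plethMult a b n lam ≤ plethMult b a n lam := by
  obtain ⟨_, hX12⟩ := PL10.X_ge h8
  have hX1 : 1 ≤ X := by omega
  have hw1 : 1 ≤ dn lam 1 := by
    have := ex_le_dn lam 1
    omega
  rcases le_or_gt (dn lam 1 * X ^ 6000) ((dn lam 1 - a - ex lam 2) ^ 2) with hs | hs
  · apply WU924.scanW hU hL hI hC hR' (X := X)
    refine ⟨h1, h2, h3, h4, h5, h6, ?_, h7, h8, ?_, h10, hs, h12, h13⟩
    · have e1 : (X ^ 6500) ^ 2 ≤ (b - a) ^ 2 := by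
        calc (X ^ 6500) ^ 2 = 1 * X ^ 13000 := by ring
          _ ≤ dn lam 1 * X ^ 13000 := Nat.mul_le_mul_right _ hw1
          _ ≤ (b - a) ^ 2 := h11
      have e2 : X ^ 6500 ≤ b - a := (Nat.pow_le_pow_iff_left (by norm_num)).1 e1
      have e3 : X ≤ X ^ 6500 := Nat.le_self_pow (by norm_num) X
      omega
    · calc dn lam 1 * X ^ 6000 ≤ dn lam 1 * X ^ 13000 :=
            Nat.mul_le_mul_left _ (Nat.pow_le_pow_right hX1 (by norm_num))
        _ ≤ (b - a) ^ 2 := h11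
        _ ≤ dn lam 2 ^ 2 := Nat.pow_le_pow_left (by omega) 2
  · refine sliver hA hC hR' (X := X) ⟨h1, h2, h3, h7, h8, h10, hs.le, h12, h13, ?_⟩
    exact (Nat.mul_le_mul_left _ (Nat.pow_le_pow_right hX1 (by norm_num))).trans h11

/-- The alternatives of the theorem. -/
def Alt (P : ℝ) (a b : ℕ) {n : ℕ} (lam : Fin n → ℕ) : Prop :=
  dn lam 1 ≤ b ∨ (2 * a ≤ dn lam 1 ∧ P * (dn lam 1 : ℝ) ≤ (a : ℝ) ^ 2 ∧
    P * (dn lam 1 : ℝ) ≤ ((b : ℝ) - a) ^ 2)

/-- **The theorem at distance `√w` from the diagonal**: no condition on the shape. -/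
def DiagH : Prop := ∃ (C : ℝ) (c : ℕ), 0 < C ∧ ∀ a b : ℕ, a ≤ b →
  ∀ (n : ℕ) (lam : Fin n → ℕ), Alt (C * (1 + Real.log a) ^ c) a b lam →
  plethMult a b n lam ≤ plethMult b a n lam

/-- The last step with general exponents. -/
theorem diag_gen (p q m : ℕ) (H : ∀ (a b n X : ℕ) (lam : Fin n → ℕ), Antitone lam →
    ∑ i, lam i = a * b → (∀ i, 0 < lam i) → n ≤ a → a ≤ b → b ≤ 5 * a → X ^ p ≤ a →
    10 ^ 12 * (1 + Real.log a) ^ m ≤ X → b + 1 < dn lam 2 + a → a < ex lam 1 →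
    dn lam 1 * X ^ q ≤ (b - a) ^ 2 → 2 * a ≤ dn lam 1 →
    dn lam 1 * X ^ q ≤ a ^ 2 → plethMult a b n lam ≤ plethMult b a n lam)
    (hLin : H467.NT.LinS) :
    ∃ (C : ℝ) (c : ℕ), 0 < C ∧ ∀ a b : ℕ, a ≤ b → ∀ (n : ℕ) (lam : Fin n → ℕ),
      Alt (C * (1 + Real.log a) ^ c) a b lam → plethMult a b n lam ≤ plethMult b a n lam := by
  obtain ⟨K, hK⟩ : ∃ K : ℝ, K = 2 * 10 ^ 12 := ⟨_, rfl⟩
  have hK0 : 0 < K := by
    rw [hK]
    norm_num
  obtain ⟨A0, hA0⟩ := PL10.ev K hK0 m p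
  obtain ⟨C0, c0, hC0, hlin⟩ := hLin
  have hKq : 0 < K ^ q := pow_pos hK0 _
  refine ⟨C0 + K ^ q + K + ((A0 : ℝ) + 2) ^ 2, c0 + (m * q + m), by positivity, ?_⟩
  intro a b hab n lam hcase
  have hlog : 0 ≤ Real.log a := Real.log_natCast_nonneg a
  have hL1 : (1 : ℝ) ≤ 1 + Real.log a := by linarith
  have hLc : (1 : ℝ) ≤ (1 + Real.log a) ^ c0 := one_le_pow₀ hL1
  have hLq : (1 : ℝ) ≤ (1 + Real.log a) ^ (m * q) := one_le_pow₀ hL1
  have hLm : (1 : ℝ) ≤ (1 + Real.log a) ^ m := one_le_pow₀ hL1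
  have hdw : (0 : ℝ) ≤ (dn lam 1 : ℝ) := Nat.cast_nonneg _
  have hA2 : (0 : ℝ) ≤ ((A0 : ℝ) + 2) ^ 2 := by positivity
  rw [pow_add, pow_add] at hcase
  obtain ⟨D, hD⟩ : ∃ D : ℝ, D = (C0 + K ^ q + K + ((A0 : ℝ) + 2) ^ 2) *
      ((1 + Real.log a) ^ c0 * ((1 + Real.log a) ^ (m * q) * (1 + Real.log a) ^ m)) := ⟨_, rfl⟩
  rw [← hD] at hcase
  have hP : (0 : ℝ) < C0 + K ^ q + K + ((A0 : ℝ) + 2) ^ 2 := by positivity
  -- the constant dominates the constants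
  have hc1 : C0 * (1 + Real.log a) ^ c0 ≤ D := by
    rw [hD]
    apply mul_le_mul _ (le_mul_of_one_le_right (by positivity)
      (one_le_mul_of_one_le_of_one_le hLq hLm)) (by positivity) hP.le
    linarith
  have hc2 : K ^ q * (1 + Real.log a) ^ (m * q) ≤ D := by
    rw [hD]
    apply mul_le_mul _ _ (by positivity) hP.le
    · linarith
    · refine le_trans ?_ (le_mul_of_one_le_left (by positivity) hLc)
      exact le_mul_of_one_le_right (by positivity) hLm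
  have hc3 : K * (1 + Real.log a) ^ m ≤ D := by
    rw [hD]
    apply mul_le_mul _ _ (by positivity) hP.le
    · linarith
    · refine le_trans ?_ (le_mul_of_one_le_left (by positivity) hLc)
      exact le_mul_of_one_le_left (by positivity) hLq
  have hc4 : ((A0 : ℝ) + 2) ^ 2 ≤ D := by
    rw [hD]
    have h1 : (1 : ℝ) ≤ (1 + Real.log a) ^ c0 *
        ((1 + Real.log a) ^ (m * q) * (1 + Real.log a) ^ m) :=
      one_le_mul_of_one_le_of_one_le hLc (one_le_mul_of_one_le_of_one_le hLq hLm)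
    refine le_trans ?_ (le_mul_of_one_le_right hP.le h1)
    linarith
  clear hD
  have hD0 : 0 ≤ D := hA2.trans hc4
  by_cases hz : plethMult a b n lam = 0
  · rw [hz]
    exact Nat.zero_le _
  obtain ⟨hanti', _, _⟩ := H530.zero_stmt a b n lam hz
  clear hz
  rcases lt_or_ge a (A0 + 2) with ha | ha
  · -- small `a`
    rcases le_or_gt (ex lam 1) a with h1 | h1
    · exact DG.E924.sec hab lam hanti' h1
    have hne : dn lam 1 ≠ 0 := by
      have := ex_le_dn lam 1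
      omega
    rcases hcase with h | ⟨_, h, _⟩
    · have e1 := dn_succ lam 1
      have e4 : dn lam (1 + 1) = dn lam 2 := rfl
      have hk : 2 ≤ n := by
        by_contra hcon
        rw [exge lam (by omega)] at h1
        omega
      obtain ⟨j, rfl⟩ : ∃ j, n = j + 2 := ⟨n - 2, by omega⟩
      rcases Nat.lt_or_ge a 2 with ha2 | ha2
      · exact low_a hab (by omega) lam
      · exact DG.E924.few_two lam ha2 (by omega)
    · exfalso
      have h1 : (1 : ℝ) ≤ dn lam 1 := by exact_mod_cast Nat.one_le_iff_ne_zero.2 hne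
      have h2 : (a : ℝ) ^ 2 < ((A0 : ℝ) + 2) ^ 2 := by
        have : (a : ℝ) < (A0 : ℝ) + 2 := by exact_mod_cast ha
        exact pow_lt_pow_left₀ this (Nat.cast_nonneg _) (by norm_num)
      have h7 := le_mul_of_one_le_right hD0 h1
      linarith
  refine PL10.trimQ lam fun k mu hanti hsum hpos hka hdn => ?_
  rcases le_or_gt (ex mu 1) a with h1 | h1
  · exact DG.E924.sec hab mu hanti h1
  have hk : 2 ≤ k := by
    by_contra hcon
    rw [exge mu (by omega)] at h1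
    omega
  obtain ⟨j, rfl⟩ : ∃ j, k = j + 2 := ⟨k - 2, by omega⟩
  rcases Nat.lt_or_ge (b + 1) (dn mu 2 + a) with h2 | h2
  swap
  · exact DG.E924.few_two mu (by omega) h2
  have e1 := dn_succ mu 1
  rw [hdn 1, hdn (1 + 1)] at e1
  rw [hdn 2] at h2
  have e4 : dn lam (1 + 1) = dn lam 2 := rfl
  rcases hcase with h | ⟨hw2, hwa, hDD⟩
  · exfalso
    omega
  rcases le_or_gt (5 * a) b with hb5 | hb5
  · apply hlin a b hb5 (j + 2) mu
    rw [hdn 1]
    exact (mul_le_mul_of_nonneg_right hc1 hdw).trans hwa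
  obtain ⟨X, hX1, hX2⟩ := PL10.exists_X a m
  rw [← hK] at hX2
  have hX0 : (0 : ℝ) ≤ X := Nat.cast_nonneg X
  have hwq : ∀ A : ℝ, D * (dn lam 1 : ℝ) ≤ A → (dn lam 1 : ℝ) * (X : ℝ) ^ q ≤ A := fun A hA =>
    PL10.num_q q m hdw hX0 hX2 ((mul_le_mul_of_nonneg_right hc2 hdw).trans hA)
  refine H a b (j + 2) X mu hanti hsum hpos hka hab hb5.le ?_ hX1 ?_ h1 ?_ ?_ ?_
  · have h1 : (X : ℝ) ^ p ≤ (K * (1 + Real.log a) ^ m) ^ p :=
      pow_le_pow_left₀ (Nat.cast_nonneg _) hX2 _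
    have h2 := h1.trans (hA0 a (by omega))
    rw [← Nat.cast_pow] at h2
    exact Nat.cast_le.1 h2
  · rw [hdn 2]
    exact h2
  · have h3 := hwq _ hDD
    rw [hdn 1]
    rw [← Nat.cast_sub hab, ← Nat.cast_pow, ← Nat.cast_pow, ← Nat.cast_mul] at h3
    exact Nat.cast_le.1 h3
  · rw [hdn 1]
    exact hw2
  · have h3 := hwq _ hwa
    rw [hdn 1]
    rw [← Nat.cast_pow, ← Nat.cast_pow, ← Nat.cast_mul] at h3
    exact Nat.cast_le.1 h3

/-- **The theorem at distance `√w` from the diagonal**, from the two assemblies. -/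
theorem diagH_of (hU : AsmU) (hA : AsmH) (hL : LBL) (hI : LBI) (hC : LBC) (hR' : LBR)
    (hLin : H467.NT.LinS) : DiagH :=
  diag_gen 20000 13000 7
    (fun _ _ _ _ _ h1 h2 h3 h4 h5 h6 h7 h8 h9 h10 h11 h12 h13 =>
    scanH hU hA hL hI hC hR' h1 h2 h3 h4 h5 h6 h7 h8 h9 h10 h11 h12 h13) hLin

end Vale.Agent.P181.DH.H924
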