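import Vale.Agent.P181.DH.H924.Hole
import Vale.Agent.P181.DH.Defs

set_option autoImplicit false

/-!
# P181, DH (H5): the sliver `2 a ≤ w`, `(w - a - λ_3) ^ 2 ≤ w X ^ 6000`
-/

namespace Vale.Agent.P181.DH.H924

open Vale.Agent.P181.T4 (ex low low_anti)
open Vale.Agent.P181.H280 (plethMult)
open Vale.Agent.P181.H463 (gt)
open Vale.Agent.P181.PL Vale.Agent.P181.PL508
open Vale.Agent.P181.SZ (LBC LBR)
open Vale.Agent.P181.SZN4 (k0_facts b0_small)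

/-- The sliver with more than three rows, some of them possibly zero. -/
lemma sliver_core (hA : AsmH) (hC : LBC) (hR' : LBR) {a b n X Z K : ℕ} {lam : Fin n → ℕ}
    (hlam : Antitone lam) (hsum : ∑ i, lam i = a * b) (hpos : (∀ i, 0 < lam i) ∨ n ≤ X)
    (hn : 3 < n) (ha : 1 ≤ a) (hX : 10 ^ 12 ≤ X)
    (hl1 : 10 ^ 12 * Real.log a ≤ X) (hwa : dn lam 1 + 1 ≤ a ^ 2) (h1 : a < ex lam 1)
    (h2a : 2 * a ≤ dn lam 1) (hZ1 : Z ^ 2 ≤ dn lam 1) (hZ2 : dn lam 1 < (Z + 1) ^ 2)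
    (hZX : X ^ 9999 ≤ Z) (hZa : Z * X ^ 6500 ≤ a)
    (hs : (dn lam 1 - a - ex lam 2) ^ 2 ≤ dn lam 1 * X ^ 6000)
    (hK1 : 1 ≤ K) (hK2 : 1000 * K ≤ X) (hwX : 4 * dn lam 1 ≤ X ^ K)
    (hab : a + Z * X ^ 9 ≤ b) : plethMult a b n lam ≤ plethMult b a n lam := by
  have hX1 : 1 ≤ X := le_trans (by norm_num) hX
  have hXp : ∀ i j, i ≤ j → X ^ i ≤ X ^ j := fun i j hij => Nat.pow_le_pow_right hX1 hij
  have hXpos : ∀ i, 1 ≤ X ^ i := fun i => Nat.one_le_pow _ _ hX1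
  have hZpos : 1 ≤ Z := (hXpos 9999).trans hZX
  have hXX : ∀ i j : ℕ, i + 1 ≤ j → 10 ^ 12 * X ^ i ≤ X ^ j := by
    intro i j hij
    refine le_trans ?_ (hXp (i + 1) j hij)
    rw [pow_succ, mul_comm]
    exact Nat.mul_le_mul_left _ hX
  have hsm : ∀ i j : ℕ, i + 1 ≤ j → 10 ^ 12 * (Z * X ^ i) ≤ Z * X ^ j := by
    intro i j hi
    calc 10 ^ 12 * (Z * X ^ i) = Z * (10 ^ 12 * X ^ i) := by ring
      _ ≤ Z * X ^ j := Nat.mul_le_mul_left _ (hXX i j hi)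
  obtain ⟨j, hj⟩ : ∃ j, j = (a + Z) / 3 + 1 := ⟨_, rfl⟩
  obtain ⟨nu, _, hn1, hn2, hn3, hn4, _, hlb⟩ := hole_lb hC hR' hlam hn ha hX hl1 hwa h1 h2a hZ1
    hZ2 hZX hZa hs (κ := j) (by omega)
  have hX20 : X ^ 20 ≤ Z := (hXp _ _ (by norm_num)).trans hZX
  obtain ⟨hk1, hk2, hk15, hkZ, hkX, hZV⟩ := k0_facts (by omega : 10 ^ 6 ≤ X) hX20
  obtain ⟨k, hk⟩ : ∃ k, k = Z / X ^ 5 := ⟨_, rfl⟩
  rw [← hk] at hk1 hk2 hk15 hkZ hkX hlb
  obtain ⟨w, hwdef⟩ : ∃ w, w = dn lam 1 := ⟨_, rfl⟩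
  rw [← hwdef] at hwa h2a hZ1 hZ2 hlb hwX
  have hZ12 : 10 ^ 12 ≤ Z := by omega
  have hwZ : w ≤ 2 * Z ^ 2 := by
    have e : (Z + 1) ^ 2 = Z ^ 2 + 2 * Z + 1 := by ring
    have e2 : Z * 4 ≤ Z * Z := Nat.mul_le_mul_left _ (by omega)
    rw [← sq] at e2
    omega
  have hb0 : w / k + 1 + 1 + 0 * 0 ≤ Z * X ^ 8 :=
    b0_small (R := 0) (r := 0) (t := 0) (by omega) (Nat.zero_le _) le_rfl (Nat.zero_le _) hk2
      (by omega) hwZ hZpos
  have g8 := hsm 8 9 (by norm_num)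
  have g0 := hsm 0 8 (by norm_num)
  have g2 := hsm 2 6500 (by norm_num)
  have g3 : Z ≤ Z * X ^ 2 := Nat.le_mul_of_pos_right _ (hXpos 2)
  rw [pow_zero, mul_one] at g0
  have g4 : 2 * k ≤ a := by
    have e1 : 2 * k ≤ k * X ^ 5 := by
      rw [mul_comm]
      apply Nat.mul_le_mul_left
      have := hXp 1 5 (by norm_num)
      rw [pow_one] at this
      omega
    omega
  refine hA a b n 2 X Z K w (2 * k) (w / k + 1) j lam nu hlam hsum ?_ le_rfl (by omega) hwdef hZ1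
    hZ2 hK1 (by omega) (by omega) hwX ?_ (by omega) (by omega) (by omega) g4 (by omega) hn1 hn2
    hn3 hn4 fun hnJ => ?_
  · rcases hpos with h | h
    · exact Or.inl h
    · refine Or.inr (h.trans ?_)
      have := Nat.mul_le_mul hZpos (hXp 1 2 (by norm_num))
      rw [one_mul, pow_one] at this
      exact this
  · -- `100 K (Z + 1) X ≤ a`
    have e1 : 100 * K * ((Z + 1) * X) ≤ X * ((2 * Z) * X) :=
      Nat.mul_le_mul (by omega) (Nat.mul_le_mul_right _ (by omega))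
    have e2 : X * ((2 * Z) * X) = 2 * (Z * X ^ 2) := by ring
    omega
  · refine le_trans ?_ (hlb hnJ)
    apply Nat.mul_le_mul_right
    calc (w + 1) ^ (2 * (Z * X ^ 2)) ≤ (w + 1) ^ (3 * (Z * X ^ 2)) :=
          Nat.pow_le_pow_right (by omega) (Nat.mul_le_mul_right _ (by norm_num))
      _ ≤ 2 * (w + 1) ^ (3 * (Z * X ^ 2)) := Nat.le_mul_of_pos_left _ (by norm_num)

/-- The hypotheses of the sliver. -/
def HyS (a b n X : ℕ) (lam : Fin n → ℕ) : Prop :=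
  Antitone lam ∧ ∑ i, lam i = a * b ∧ (∀ i, 0 < lam i) ∧ X ^ 20000 ≤ a ∧
    10 ^ 12 * (1 + Real.log a) ^ 7 ≤ X ∧ a < ex lam 1 ∧
    (dn lam 1 - a - ex lam 2) ^ 2 ≤ dn lam 1 * X ^ 6000 ∧ 2 * a ≤ dn lam 1 ∧
    dn lam 1 * X ^ 13000 ≤ a ^ 2 ∧ dn lam 1 * X ^ 18 ≤ (b - a) ^ 2

/-- **The sliver.** -/
theorem sliver (hA : AsmH) (hC : LBC) (hR' : LBR) {a b n X : ℕ} {lam : Fin n → ℕ}
    (h : HyS a b n X lam) : plethMult a b n lam ≤ plethMult b a n lam := by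
  obtain ⟨hlam, hsum, hpos, hXa, hlog, h1, hs, h2a, hw, hbw⟩ := h
  have ha : 1 ≤ a := by
    by_contra hcon
    have : a = 0 := by omega
    subst this
    rw [zero_mul] at hsum
    have h2 := ex_le_dn lam 1
    have h3 := dn_anti lam (Nat.zero_le 1)
    rw [dn_zero, hsum] at h3
    omega
  obtain ⟨hX, hl1, hl6, K, hK1, hK2, hK3⟩ := X_facts ha hlog
  have hX1 : 1 ≤ X := le_trans (by norm_num) hX
  obtain ⟨w, hwdef⟩ : ∃ w, w = dn lam 1 := ⟨_, rfl⟩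
  have hXX : X ≤ X ^ 13000 := Nat.le_self_pow (by norm_num) X
  have hwa : w + 1 ≤ a ^ 2 := by
    rw [← hwdef] at hw h2a
    have : w * 2 ≤ w * X ^ 13000 := Nat.mul_le_mul_left _ (by omega)
    omega
  obtain ⟨Z, hZ⟩ : ∃ Z, Z = Nat.sqrt w := ⟨_, rfl⟩
  have hZ1 : Z ^ 2 ≤ w := by
    rw [hZ]
    exact Nat.sqrt_le' w
  have hZ2 : w < (Z + 1) ^ 2 := by
    rw [hZ]
    exact Nat.lt_succ_sqrt' w
  have hZa : Z * X ^ 6500 ≤ a := by
    have h2 : (Z * X ^ 6500) ^ 2 ≤ a ^ 2 := by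
      calc (Z * X ^ 6500) ^ 2 = Z ^ 2 * X ^ 13000 := by ring
        _ ≤ w * X ^ 13000 := Nat.mul_le_mul_right _ hZ1
        _ ≤ a ^ 2 := by
            rw [hwdef]
            exact hw
    exact (Nat.pow_le_pow_iff_left (by norm_num)).1 h2
  have hZX : X ^ 9999 ≤ Z := by
    by_contra hcon
    have h2 : Z + 1 ≤ X ^ 9999 := by omega
    have h3 : (Z + 1) ^ 2 ≤ (X ^ 9999) ^ 2 := Nat.pow_le_pow_left h2 2
    have h5 : (X ^ 9999) ^ 2 ≤ X ^ 20000 := by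
      rw [← pow_mul]
      exact Nat.pow_le_pow_right hX1 (by norm_num)
    omega
  have hab : a + Z * X ^ 9 ≤ b := by
    have h2 : (Z * X ^ 9) ^ 2 ≤ (b - a) ^ 2 := by
      calc (Z * X ^ 9) ^ 2 = Z ^ 2 * X ^ 18 := by ring
        _ ≤ w * X ^ 18 := Nat.mul_le_mul_right _ hZ1
        _ ≤ (b - a) ^ 2 := by
            rw [hwdef]
            exact hbw
    have h3 : Z * X ^ 9 ≤ b - a := (Nat.pow_le_pow_iff_left (by norm_num)).1 h2
    have hZpos : 1 ≤ Z := (Nat.one_le_pow _ _ hX1).trans hZX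
    have h4 : 1 ≤ Z * X ^ 9 := Nat.mul_pos hZpos (Nat.one_le_pow _ _ hX1)
    omega
  have hwK : 4 * w ≤ X ^ K := by
    have h2 : a ^ 2 ≤ a ^ 3 := Nat.pow_le_pow_right ha (by norm_num)
    have h3 : 2 ^ K ≤ X ^ K := Nat.pow_le_pow_left (by omega) K
    omega
  rw [hwdef] at hwa hZ1 hZ2 hwK
  rcases Nat.lt_or_ge 3 n with hn | hn
  · exact sliver_core hA hC hR' hlam hsum (Or.inl hpos) hn ha hX hl1 hwa h1 h2a hZ1 hZ2 hZX hZa
      hs hK1 hK2 hwK hab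
  · obtain ⟨mu, hmu, hmusum, hmuex, hmudn, hmup⟩ := PL81.pad_rows (a := 4) lam hlam (by omega)
    rw [← hmup a b, ← hmup b a]
    refine sliver_core hA hC hR' (X := X) (Z := Z) (K := K) hmu (by rw [hmusum, hsum])
      (Or.inr (by omega)) (by norm_num) ha hX hl1 (by rw [hmudn]; exact hwa)
      (by rw [hmuex]; exact h1) (by rw [hmudn]; exact h2a) (by rw [hmudn]; exact hZ1)
      (by rw [hmudn]; exact hZ2) hZX hZa (by rw [hmudn, hmuex]; exact hs) hK1 hK2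
      (by rw [hmudn]; exact hwK) hab

end Vale.Agent.P181.DH.H924
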